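import Mathlib
import Vale.Agent.P100.Linear.Sphere
import Vale.Agent.P100.Local.Pohozaev

open Laplacian

namespace Vale.Agent.Results.P100.AllWeightsRange

/-- The Hénon-Lane-Emden system has no positive entire solution in the plane, for a weight at most
inverse square, for weighted exponents above half of `n - 2`, and for all subcritical weights when
`p` or `q` is one, when both unweighted exponents exceed half of `n - 2` or when one of them
exceeds `n - 2`. -/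
theorem result : ∀ (n : ℕ) (A B p q : ℝ), 2 ≤ n → 0 < p → 0 < q →
    (n = 2 ∨ A ≤ -2 ∨ B ≤ -2 ∨
      (((n : ℝ) - 2) / 2 * (p * q - 1) < 2 + A + p * (2 + B) ∧
        ((n : ℝ) - 2) / 2 * (p * q - 1) < 2 + B + q * (2 + A)) ∨
      (((n : ℝ) + A) / (p + 1) + ((n : ℝ) + B) / (q + 1) > (n : ℝ) - 2 ∧
        (p = 1 ∨ q = 1 ∨
          (((n : ℝ) - 2) * (p * q - 1) < 4 * (p + 1) ∧
            ((n : ℝ) - 2) * (p * q - 1) < 4 * (q + 1)) ∨
          ((n : ℝ) - 2) * (p * q - 1) < 2 * (max p q + 1)))) →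
    ¬ ∃ u v : EuclideanSpace ℝ (Fin n) → ℝ, Continuous u ∧ Continuous v ∧
      ContDiffOn ℝ 2 u {0}ᶜ ∧ ContDiffOn ℝ 2 v {0}ᶜ ∧ (∀ x, 0 < u x) ∧ (∀ x, 0 < v x) ∧
      (∀ x, x ≠ 0 → -(Δ u x) = ‖x‖ ^ A * v x ^ p) ∧
      (∀ x, x ≠ 0 → -(Δ v x) = ‖x‖ ^ B * u x ^ q) := by
  rintro n A B p q hn hp hq hcase ⟨u, v, hu, hv, hu2, hv2, hup, hvp, he1, he2⟩
  by_cases hold : n = 2 ∨ A ≤ -2 ∨ B ≤ -2
  · exact Vale.Agent.P100.no_solution hn hp hq hold hu hv hu2 hv2 hup hvp he1 he2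
  push Not at hold
  obtain ⟨hn2, hA, hB⟩ := hold
  have hn3 : 3 ≤ n := by omega
  rcases hcase with h | h | h | ⟨h1, h2⟩ | ⟨hsub, hr⟩
  · exact hn2 h
  · exact (not_le.2 hA) h
  · exact (not_le.2 hB) h
  · exact Vale.Agent.P100.Sphere.no_solution hn3 hp hq hA hB h1 h2 hu hv hu2 hv2 hup hvp he1 he2
  rcases le_or_gt (p * q) 1 with hpq | hpq
  · have hn0 : (3 : ℝ) ≤ n := by exact_mod_cast hn3
    have hneg : ((n : ℝ) - 2) / 2 * (p * q - 1) ≤ 0 :=
      mul_nonpos_of_nonneg_of_nonpos (by linarith) (by linarith)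
    have h1 : 0 < p * (2 + B) := mul_pos hp (by linarith)
    have h2 : 0 < q * (2 + A) := mul_pos hq (by linarith)
    exact Vale.Agent.P100.Sphere.no_solution hn3 hp hq hA hB (by linarith) (by linarith) hu hv hu2
      hv2 hup hvp he1 he2
  rcases hr with rfl | rfl | hr
  · exact Vale.Agent.P100.Linear.no_solution_one hn hq hsub hu hv hu2 hv2 hup hvp he1 he2
  · rw [add_comm (((n : ℝ) + A) / (p + 1))] at hsub
    exact Vale.Agent.P100.Linear.no_solution_one hn hp hsub hv hu hv2 hu2 hvp hup he2 he1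
  exact Vale.Agent.P100.Local.no_solution hn3 hp hq hA hB hpq hsub hr hu hv
    ⟨fun x hx => hu2.contDiffAt (isOpen_compl_singleton.mem_nhds hx),
      fun x hx => hv2.contDiffAt (isOpen_compl_singleton.mem_nhds hx),
      fun x _ => hup x, fun x _ => hvp x, he1, he2⟩

end Vale.Agent.Results.P100.AllWeightsRange
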